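import Vale.Agent.P281.H156.KD.Core

/-! P281, theorem KGL: the Bochner inequality after multiplication by `exp w`. -/

open scoped Manifold ContDiff ComplexOrder Topology
open Complex Set Filter MeasureTheory

set_option linter.all false

noncomputable section

namespace Vale.Agent.P281.H156.KL

open Vale.Agent.P272.K Vale.Agent.P272.K.AMP Vale.Agent.P299.D Vale.Agent.P299 Vale.Agent.P299.H882
open Vale.Agent.P281.H167.SA Vale.Agent.P281.H167.GM Vale.Agent.P281.H713.KD
open Vale.Agent.P281.H156.KD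
open INT (IsDensity intX IsClosedForm)

variable {n M : ℕ} {X : Type} [TopologicalSpace X] [ChartedSpace (Cm n) X]
  [IsManifold 𝓘(ℂ, Cm n) ω X]
  {χ θ β G g : D.FormM n X} {φ : Chart n X → Cm n → ℝ} {m : ℕ} {ρ : X → ℝ}
  {Dv : Fin M → Set X} {r : Fin M → X → ℝ} {R : Fin M → D.FormM n X} {dl : Fin M → ℝ}

omit [IsManifold 𝓘(ℂ, Cm n) ω X] in
lemma smooth_exp {w : X → ℝ} (hw : SmoothFn (n := n) w) :
    SmoothFn (n := n) (fun x => Real.exp (w x)) := fun e x hx => (hw e x hx).exp

/-- multiplication by `exp w` -/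
lemma bochF_mul_exp (hg : IsHermitian g) {τ S w : X → ℝ} (hS : SmoothFn (n := n) S)
    (hw : SmoothFn (n := n) w) (h : BochF g τ S) :
    BochF g (fun x => τ x - lapX g w x) (fun x => S x * Real.exp (w x)) := by
  intro x
  have hE := smooth_exp hw
  have hSE : SmoothFn (n := n) (fun x => S x * Real.exp (w x)) := fun e x hx =>
    (hS e x hx).mul (hE e x hx)
  have hd : DifferentiableAt ℝ Real.exp (w x) := Real.differentiableAt_exp
  have a1 : gradX g S (fun x => Real.exp (w x)) x = Real.exp (w x) * gradX g S w x := by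
    rw [gradX_comp_right (φ := Real.exp) hd hw, Real.deriv_exp]
  have a2 : gradX g (fun x => Real.exp (w x)) S x = Real.exp (w x) * gradX g S w x := by
    rw [gradX_comp_left (φ := Real.exp) hd hw, Real.deriv_exp, gradX_comm hg.posDef w S x]
  have a3 : gradX g (fun x => Real.exp (w x)) (fun x => Real.exp (w x)) x =
      Real.exp (w x) * (Real.exp (w x) * gradX g w w x) := by
    rw [gradX_comp_left (φ := Real.exp) hd hw, Real.deriv_exp,
      gradX_comp_right (φ := Real.exp) hd hw, Real.deriv_exp]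
  have b1 : gradX g (fun x => S x * Real.exp (w x)) (fun x => S x * Real.exp (w x)) x =
      Real.exp (w x) * (Real.exp (w x) * gradX g S S x + S x * (Real.exp (w x) * gradX g S w x)) +
      S x * (Real.exp (w x) * (Real.exp (w x) * gradX g S w x) +
        S x * (Real.exp (w x) * (Real.exp (w x) * gradX g w w x))) := by
    rw [gradX_mul_left hS hE, gradX_mul_right hS hE, gradX_mul_right hS hE, a1, a2, a3]
  have b2 : lapX g (fun x => Real.exp (w x)) x =
      Real.exp (w x) * lapX g w x + Real.exp (w x) * gradX g w w x := by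
    rw [lapX_comp' (φ := Real.exp) Real.contDiff_exp.contDiffAt hw, Real.deriv_exp, Real.deriv_exp]
  have b3 : lapX g (fun x => S x * Real.exp (w x)) x =
      S x * (Real.exp (w x) * lapX g w x + Real.exp (w x) * gradX g w w x) +
        Real.exp (w x) * lapX g S x + 2 * (Real.exp (w x) * gradX g S w x) := by
    rw [lapX_mul hg.posDef hS hE, a1, b2]
  have h1 := mul_le_mul_of_nonneg_left (h x) (by positivity : 0 ≤ Real.exp (w x) ^ 2)
  rw [b1, b3]
  linarith [h1, show Real.exp (w x) * (Real.exp (w x) * gradX g S S x + S x * (Real.exp (w x) *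
      gradX g S w x)) + S x * (Real.exp (w x) * (Real.exp (w x) * gradX g S w x) +
        S x * (Real.exp (w x) * (Real.exp (w x) * gradX g w w x))) =
      Real.exp (w x) ^ 2 * gradX g S S x + 2 * (S x * Real.exp (w x) ^ 2 * gradX g S w x) +
      S x ^ 2 * Real.exp (w x) ^ 2 * gradX g w w x by ring,
    show S x * Real.exp (w x) * (S x * (Real.exp (w x) * lapX g w x + Real.exp (w x) *
      gradX g w w x) + Real.exp (w x) * lapX g S x + 2 * (Real.exp (w x) * gradX g S w x)) +
      (τ x - lapX g w x) * (S x * Real.exp (w x)) ^ 2 =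
      Real.exp (w x) ^ 2 * (S x * lapX g S x + τ x * S x ^ 2) +
      2 * (S x * Real.exp (w x) ^ 2 * gradX g S w x) +
      S x ^ 2 * Real.exp (w x) ^ 2 * gradX g w w x by ring]

lemma trX_addH {B : D.FormM n X} {v : X → ℝ} (x : X) :
    trX g (addH B v) x = trX g B x + lapX g v x := by
  have h2 : trX g (addH B v) x =
      ((g (chartAt (Cm n) x) (chartAt (Cm n) x x))⁻¹ *
        (B (chartAt (Cm n) x) (chartAt (Cm n) x x) +
          hess v (chartAt (Cm n) x) (chartAt (Cm n) x x))).trace.re := rfl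
  rw [h2, tr_add]
  rfl

lemma trX_curvK (hφ : IsCanonicalMetric φ) (hρ : SmoothFn (n := n) ρ)
    (h0 : ∀ x, 0 ≤ ρ x) {δ : ℝ} (hδ : 0 < δ) (x : X) :
    trX g (curvK φ m ρ δ dl R) x = trX g (clsK φ dl R) x +
      lapX g (fun x => (m : ℝ)⁻¹ * Real.log (ρ x + δ)) x := by
  have hx := at_chartAt (n := n) x
  rw [← trX_addH]
  have h1 := cHess_phiD (m := m) hφ hρ h0 hδ hx
  set e := chartAt (Cm n) x with he
  have h2 : addH (cF φ) (fun x => (m : ℝ)⁻¹ * Real.log (ρ x + δ)) e (e x) = cHess (φ e) (e x) +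
      cHess (fun y => (m : ℝ)⁻¹ * Real.log (ρ (e.symm y) + δ)) (e x) := rfl
  have h3 : addH (clsK φ dl R) (fun x => (m : ℝ)⁻¹ * Real.log (ρ x + δ)) e (e x) =
      cHess (φ e) (e x) + (∑ i, ((dl i : ℝ) : ℂ) • R i e (e x)) +
      cHess (fun y => (m : ℝ)⁻¹ * Real.log (ρ (e.symm y) + δ)) (e x) := rfl
  have h4 : curvK φ m ρ δ dl R e (e x) = cHess (phiD φ m ρ δ e) (e x) +
      ∑ i, ((dl i : ℝ) : ℂ) • R i e (e x) := rfl
  have h5 : curvK φ m ρ δ dl R e (e x) =
      addH (clsK φ dl R) (fun x => (m : ℝ)⁻¹ * Real.log (ρ x + δ)) e (e x) := by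
    rw [h3, h4, h1, h2]
    abel
  show ((g e (e x))⁻¹ * curvK φ m ρ δ dl R e (e x)).trace.re =
    ((g e (e x))⁻¹ * addH (clsK φ dl R) (fun x => (m : ℝ)⁻¹ * Real.log (ρ x + δ)) e (e x)).trace.re
  rw [h5]

end Vale.Agent.P281.H156.KL
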