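import Vale.Agent.P281.H156.KL.Boch
import Vale.Agent.P281.H716.KL.IfaceG
import Vale.Agent.P272.K.QN.H527.Tools

/-! P281, theorem KGL: one metric with a small total curvature. -/

open scoped Manifold ContDiff ComplexOrder Topology
open Complex Set Filter MeasureTheory

set_option linter.all false

noncomputable section

namespace Vale.Agent.P281.H156.KL

open Vale.Agent.P272.K Vale.Agent.P272.K.AMP Vale.Agent.P299.D Vale.Agent.P299 Vale.Agent.P299.H882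
open Vale.Agent.P281.H167.SA Vale.Agent.P281.H167.GM Vale.Agent.P281.H713.KD
open Vale.Agent.P281.H156.KD Vale.Agent.P281.H716.KL
open INT (IsDensity intX IsClosedForm)

variable {n M : ℕ} {X : Type} [TopologicalSpace X] [ChartedSpace (Cm n) X]
  [IsManifold 𝓘(ℂ, Cm n) ω X]
  {χ θ β G g Λ₁ : D.FormM n X} {φ : Chart n X → Cm n → ℝ} {m m₁ : ℕ} {ρ ρ₁ : X → ℝ}
  {Dv : Fin M → Set X} {r : Fin M → X → ℝ} {R : Fin M → D.FormM n X} {dl : Fin M → ℝ}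

/-- the form `Λ₁ + (1/m₁) i∂∂̄ log (ρ₁ + δ)` -/
def curv1 (Λ₁ : D.FormM n X) (m₁ : ℕ) (ρ₁ : X → ℝ) (δ : ℝ) : D.FormM n X :=
  addH Λ₁ (fun x => (m₁ : ℝ)⁻¹ * Real.log (ρ₁ x + δ))

/-- semipositivity of `Λ₁ + (1/m₁) i∂∂̄ log ρ₁` -/
def Curv1Ge (Λ₁ : D.FormM n X) (m₁ : ℕ) (ρ₁ : X → ℝ) (C : ℝ) (χ : D.FormM n X) : Prop :=
  ∀ δ : ℝ, 0 < δ → ∀ e x, At e x → (Λ₁ e (e x) + (((m₁ : ℝ)⁻¹ : ℝ) : ℂ) •
    hess (fun y => Real.log (ρ₁ y + δ)) e (e x) +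
    ((C * (δ / (ρ₁ x + δ)) : ℝ) : ℂ) • χ e (e x)).PosSemidef

omit [IsManifold 𝓘(ℂ, Cm n) ω X] in
lemma Curv1Ge.mono {C C' : ℝ} (h0 : ∀ x, 0 ≤ ρ₁ x) (hC : Curv1Ge Λ₁ m₁ ρ₁ C χ) (hCC : C ≤ C')
    (hχ : ∀ e x, At e x → (χ e (e x)).PosSemidef) : Curv1Ge Λ₁ m₁ ρ₁ C' χ := by
  intro δ hδ e x hx
  have h1 := hC δ hδ e x hx
  have h2 : 0 ≤ (C' - C) * (δ / (ρ₁ x + δ)) := by
    have := h0 x
    exact mul_nonneg (by linarith) (by positivity)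
  have h3 := h1.add (psd_real_smul (hχ e x hx) h2)
  have e1 : ((C' * (δ / (ρ₁ x + δ)) : ℝ) : ℂ) • χ e (e x) =
      ((C * (δ / (ρ₁ x + δ)) : ℝ) : ℂ) • χ e (e x) +
        (((C' - C) * (δ / (ρ₁ x + δ)) : ℝ) : ℂ) • χ e (e x) := by
    rw [← add_smul]
    congr 1
    push_cast
    ring
  rw [e1, ← add_assoc]
  exact h3

lemma curv1_psd {C : ℝ} (hρ : SmoothFn (n := n) ρ₁) (h0 : ∀ x, 0 ≤ ρ₁ x)
    (hC : Curv1Ge Λ₁ m₁ ρ₁ C χ) {δ : ℝ} (hδ : 0 < δ) {e : Chart n X} {x : X} (hx : At e x) :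
    (curv1 Λ₁ m₁ ρ₁ δ e (e x) + ((C * (δ / (ρ₁ x + δ)) : ℝ) : ℂ) • χ e (e x)).PosSemidef := by
  have h1 := hC δ hδ e x hx
  have h2 := hess_const_mul' (m₁ : ℝ)⁻¹ (smooth_logr hρ h0 hδ) hx
  have h3 : curv1 Λ₁ m₁ ρ₁ δ e (e x) = Λ₁ e (e x) +
      hess (fun x => (m₁ : ℝ)⁻¹ * Real.log (ρ₁ x + δ)) e (e x) := rfl
  rw [h3, h2]
  exact h1

lemma curv1_trX_nonneg {C : ℝ} (hg : IsHermitian g) (hρ : SmoothFn (n := n) ρ₁)
    (h0 : ∀ x, 0 ≤ ρ₁ x) (hC : Curv1Ge Λ₁ m₁ ρ₁ C χ) {δ : ℝ} (hδ : 0 < δ) (x : X) :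
    0 ≤ trX g (curv1 Λ₁ m₁ ρ₁ δ) x + C * (δ / (ρ₁ x + δ)) * trX g χ x := by
  have hx := at_chartAt (n := n) x
  have h1 := curv1_psd hρ h0 hC hδ hx
  have h2 : trX g (curv1 Λ₁ m₁ ρ₁ δ) x + C * (δ / (ρ₁ x + δ)) * trX g χ x =
      ((g (chartAt (Cm n) x) (chartAt (Cm n) x x))⁻¹ *
        (curv1 Λ₁ m₁ ρ₁ δ (chartAt (Cm n) x) (chartAt (Cm n) x x) +
          ((C * (δ / (ρ₁ x + δ)) : ℝ) : ℂ) • χ (chartAt (Cm n) x) (chartAt (Cm n) x x))).trace.re := by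
    rw [tr_add, tr_smul]
    rfl
  rw [h2]
  exact (Complex.le_def.1 (C2.trace_mul_nonneg (hg.posDef _ x hx).inv.posSemidef h1)).1

omit [IsManifold 𝓘(ℂ, Cm n) ω X] in
lemma isH_smul {A : Matrix (Fin n) (Fin n) ℂ} (hA : A.IsHermitian) (C : ℝ) :
    ((C : ℂ) • A).IsHermitian := by
  unfold Matrix.IsHermitian
  rw [Matrix.conjTranspose_smul, hA.eq]
  simp

lemma isClosed_curv1 (hΛ : IsClosedForm Λ₁) (hρ : SmoothFn (n := n) ρ₁) (h0 : ∀ x, 0 ≤ ρ₁ x)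
    {δ : ℝ} (hδ : 0 < δ) : IsClosedForm (curv1 Λ₁ m₁ ρ₁ δ) := by
  have h1 := smooth_logR hρ h0 m₁ hδ
  have h2 := hΛ.add (INT.isClosedForm_cHess h1)
  exact h2

/-- `log (ρ₁ + δ)` is uniformly quasi-plurisubharmonic -/
lemma exists_qpsh [CompactSpace X] {C : ℝ} (hχ : IsKahler χ) (hΛ : IsClosedForm Λ₁) (hm : 0 < m₁)
    (hρ : SmoothFn (n := n) ρ₁) (h0 : ∀ x, 0 ≤ ρ₁ x) (hC0 : 0 ≤ C)
    (hC : Curv1Ge Λ₁ m₁ ρ₁ C χ) : ∃ C₁ : ℝ, 0 ≤ C₁ ∧ ∀ δ' : ℝ, 0 < δ' → ∀ e x, At e x →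
    (hess (fun y => Real.log (ρ₁ y + δ')) e (e x) + (C₁ : ℂ) • χ e (e x)).PosSemidef := by
  have hH : ∀ e x, At e x → (Λ₁ e (e x)).IsHermitian := by
    intro e x hx
    have h1 := (hC 1 one_pos e x hx).isHermitian
    have h2 : (hess (fun y => Real.log (ρ₁ y + 1)) e (e x)).IsHermitian :=
      cHess_isHermitian (sm_two (smooth_logr hρ h0 one_pos) hx)
    have h3 : ((((m₁ : ℝ)⁻¹ : ℝ) : ℂ) •
        hess (fun y => Real.log (ρ₁ y + 1)) e (e x)).IsHermitian := isH_smul h2 _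
    have h4 : (((C * (1 / (ρ₁ x + 1)) : ℝ) : ℂ) • χ e (e x)).IsHermitian :=
      isH_smul (hχ.posDef e x hx).isHermitian _
    have h5 := (h1.sub h4).sub h3
    have h6 : Λ₁ e (e x) + (((m₁ : ℝ)⁻¹ : ℝ) : ℂ) •
        hess (fun y => Real.log (ρ₁ y + 1)) e (e x) +
        ((C * (1 / (ρ₁ x + 1)) : ℝ) : ℂ) • χ e (e x) - ((C * (1 / (ρ₁ x + 1)) : ℝ) : ℂ) • χ e (e x) -
        (((m₁ : ℝ)⁻¹ : ℝ) : ℂ) • hess (fun y => Real.log (ρ₁ y + 1)) e (e x) = Λ₁ e (e x) := by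
      abel
    rwa [h6] at h5
  obtain ⟨C₂, hC₂, h⟩ := QN.exists_comparison_form hχ.toIsHermitian hΛ.smooth hH hΛ.form
  have hm' : (0 : ℝ) < m₁ := by exact_mod_cast hm
  refine ⟨m₁ * (C₂ + C), by positivity, fun δ' hδ' e x hx => ?_⟩
  have hχ' := (hχ.posDef e x hx).posSemidef
  have h1 := (hC δ' hδ' e x hx).add (h e x hx)
  have h2 : 0 ≤ C - C * (δ' / (ρ₁ x + δ')) := by
    have := h0 x
    have h3 : δ' / (ρ₁ x + δ') ≤ 1 := by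
      rw [div_le_one (by linarith)]; linarith
    have := mul_le_mul_of_nonneg_left h3 hC0
    linarith
  have h3 := psd_real_smul (h1.add (psd_real_smul hχ' h2)) hm'.le
  have e1 : ((m₁ : ℝ) : ℂ) • (Λ₁ e (e x) + (((m₁ : ℝ)⁻¹ : ℝ) : ℂ) •
      hess (fun y => Real.log (ρ₁ y + δ')) e (e x) +
      ((C * (δ' / (ρ₁ x + δ')) : ℝ) : ℂ) • χ e (e x) + ((C₂ : ℂ) • χ e (e x) - Λ₁ e (e x)) +
      ((C - C * (δ' / (ρ₁ x + δ')) : ℝ) : ℂ) • χ e (e x)) =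
      hess (fun y => Real.log (ρ₁ y + δ')) e (e x) + ((m₁ * (C₂ + C) : ℝ) : ℂ) • χ e (e x) := by
    have hmc : ((m₁ : ℝ) : ℂ) ≠ 0 := by exact_mod_cast hm'.ne'
    ext i j
    simp only [Matrix.add_apply, Matrix.smul_apply, Matrix.sub_apply, smul_eq_mul]
    push_cast
    field_simp
    ring
  rwa [e1] at h3

/-- the additional part of `τ` -/
def tau1 (χ g Λ₁ : D.FormM n X) (m₁ : ℕ) (ρ ρ₁ : X → ℝ) (C c δ : ℝ) (x : X) : ℝ :=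
  c * (trX g (curv1 Λ₁ m₁ ρ₁ δ) x + C * (δ / (ρ₁ x + δ)) * trX g χ x) +
    c * (C * (δ / (ρ x + δ)) * trX g χ x)

section

variable {C c δ : ℝ} (hg : IsHermitian g) (hχ : IsKahler χ) (hΛ : IsClosedForm Λ₁)
  (hρ : SmoothFn (n := n) ρ) (h0 : ∀ x, 0 ≤ ρ x) (hρ₁ : SmoothFn (n := n) ρ₁)
  (h01 : ∀ x, 0 ≤ ρ₁ x) (hδ : 0 < δ)

include hg hχ hΛ hρ h0 hρ₁ h01 hδ in
lemma cont_tau1 : Continuous (tau1 χ g Λ₁ m₁ ρ ρ₁ C c δ) := by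
  have cχ := cont_trX hg (INT.IsKahler.isClosedForm hχ)
  have c1 := cont_trX hg (isClosed_curv1 (m₁ := m₁) hΛ hρ₁ h01 hδ)
  have cρ := sm_continuous hρ
  have cρ₁ := sm_continuous hρ₁
  unfold tau1
  exact (continuous_const.mul (c1.add ((continuous_const.mul (cont_quot cρ₁ h01 hδ)).mul cχ))).add
    (continuous_const.mul ((continuous_const.mul (cont_quot cρ h0 hδ)).mul cχ))

include hg hχ h0 hρ₁ h01 hδ in
lemma tau1_nonneg' (hC0 : 0 ≤ C) (hc : 0 ≤ c) (hC : Curv1Ge Λ₁ m₁ ρ₁ C χ) (x : X) :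
    0 ≤ tau1 χ g Λ₁ m₁ ρ ρ₁ C c δ x := by
  have h1 := curv1_trX_nonneg hg hρ₁ h01 hC hδ x
  have h2 := trX_chi_nonneg hg hχ x
  have h3 := h0 x
  unfold tau1
  positivity

end

/-- the total additional curvature -/
lemma J_tau1_le [T2Space X] [CompactSpace X] (coh : CohPart) (hχ : IsKahler χ)
    (hΛ : IsClosedForm Λ₁) (hρ : SmoothFn (n := n) ρ) (h0 : ∀ x, 0 ≤ ρ x)
    (hρ₁ : SmoothFn (n := n) ρ₁) (h01 : ∀ x, 0 ≤ ρ₁ x)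
    (hθ : IsClosedForm θ) (hβ : IsClosedForm β)
    (hθ0 : ∀ e x, At e x → (θ e (e x)).PosSemidef) (hβ0 : ∀ e x, At e x → (β e (e x)).PosSemidef)
    {s t : ℝ} (hs : 0 ≤ s) (ht : 0 < t) {δ : ℝ} (hδ : 0 < δ)
    {U : X → ℝ} (hU : SmoothFn (n := n) U) (hg : IsKahler (addH (addF (addF β s θ) t χ) U))
    {C c κ₁ : ℝ} (hC : 0 ≤ C) (hc : 0 ≤ c)
    (E1 : H882.J (addH (addF (addF β s θ) t χ) U) (fun x => δ / (ρ x + δ) *
      trX (addH (addF (addF β s θ) t χ) U) (addF (addF β s θ) t χ) x) ≤ κ₁)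
    (E4 : H882.J (addH (addF (addF β s θ) t χ) U) (fun x => δ / (ρ₁ x + δ) *
      trX (addH (addF (addF β s θ) t χ) U) (addF (addF β s θ) t χ) x) ≤ κ₁) :
    H882.J (addH (addF (addF β s θ) t χ) U)
      (tau1 χ (addH (addF (addF β s θ) t χ) U) Λ₁ m₁ ρ ρ₁ C c δ) ≤
      c * mixX (addF (addF β s θ) t χ) Λ₁ + 2 * (c * C * t⁻¹ * κ₁) := by
  set G : D.FormM n X := addF (addF β s θ) t χ with hGdef
  set g : D.FormM n X := addH G U with hgdef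
  have hG : IsKahler G := isKahler_G hχ hθ hβ hθ0 hβ0 hs ht
  have hgH := hg.toIsHermitian
  have cρ := sm_continuous hρ
  have cρ₁ := sm_continuous hρ₁
  have cG := cont_trX hgH (INT.IsKahler.isClosedForm hG)
  have c1 := cont_trX hgH (isClosed_curv1 (m₁ := m₁) hΛ hρ₁ h01 hδ)
  have cq1 := (cont_quot cρ h0 hδ).mul cG
  have cq2 := (cont_quot cρ₁ h01 hδ).mul cG
  have hle : ∀ x, trX g χ x ≤ t⁻¹ * trX g G x := by
    intro x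
    have h1 := (trX_chi_le hgH hχ hθ hβ hθ0 hβ0 hs ht x).1
    rw [inv_mul_eq_div, le_div_iff₀ ht, mul_comm]
    exact h1
  have hpt : ∀ x, tau1 χ g Λ₁ m₁ ρ ρ₁ C c δ x ≤
      c * trX g (curv1 Λ₁ m₁ ρ₁ δ) x + (c * C * t⁻¹ * (δ / (ρ x + δ) * trX g G x) +
        c * C * t⁻¹ * (δ / (ρ₁ x + δ) * trX g G x)) := by
    intro x
    have h1 := hle x
    have h2 : 0 ≤ δ / (ρ x + δ) := by have := h0 x; positivity
    have h3 : 0 ≤ δ / (ρ₁ x + δ) := by have := h01 x; positivity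
    have a1 := mul_le_mul_of_nonneg_left h1 (by positivity : 0 ≤ c * (C * (δ / (ρ x + δ))))
    have a2 := mul_le_mul_of_nonneg_left h1 (by positivity : 0 ≤ c * (C * (δ / (ρ₁ x + δ))))
    unfold tau1
    have e1 : c * (trX g (curv1 Λ₁ m₁ ρ₁ δ) x + C * (δ / (ρ₁ x + δ)) * trX g χ x) +
        c * (C * (δ / (ρ x + δ)) * trX g χ x) = c * trX g (curv1 Λ₁ m₁ ρ₁ δ) x +
        (c * (C * (δ / (ρ x + δ))) * trX g χ x + c * (C * (δ / (ρ₁ x + δ))) * trX g χ x) := by ring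
    have e2 : c * C * t⁻¹ * (δ / (ρ x + δ) * trX g G x) =
        c * (C * (δ / (ρ x + δ))) * (t⁻¹ * trX g G x) := by ring
    have e3 : c * C * t⁻¹ * (δ / (ρ₁ x + δ) * trX g G x) =
        c * (C * (δ / (ρ₁ x + δ))) * (t⁻¹ * trX g G x) := by ring
    rw [e1, e2, e3]
    linarith
  have cT : Continuous (tau1 χ g Λ₁ m₁ ρ ρ₁ C c δ) := cont_tau1 hgH hχ hΛ hρ h0 hρ₁ h01 hδ
  have d1 : Continuous fun x => c * trX g (curv1 Λ₁ m₁ ρ₁ δ) x := continuous_const.mul c1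
  have d2 : Continuous fun x => c * C * t⁻¹ * (δ / (ρ x + δ) * trX g G x) :=
    continuous_const.mul cq1
  have d3 : Continuous fun x => c * C * t⁻¹ * (δ / (ρ₁ x + δ) * trX g G x) :=
    continuous_const.mul cq2
  have d4 : Continuous fun x => c * C * t⁻¹ * (δ / (ρ x + δ) * trX g G x) +
      c * C * t⁻¹ * (δ / (ρ₁ x + δ) * trX g G x) := d2.add d3
  have d5 : Continuous fun x => c * trX g (curv1 Λ₁ m₁ ρ₁ δ) x +
      (c * C * t⁻¹ * (δ / (ρ x + δ) * trX g G x) +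
        c * C * t⁻¹ * (δ / (ρ₁ x + δ) * trX g G x)) := d1.add d4
  refine (J_mono hgH cT d5 hpt).trans ?_
  rw [J_add hgH d1 d4, J_add hgH d2 d3, J_const_mul, J_const_mul, J_const_mul]
  have f1 : H882.J g (trX g (curv1 Λ₁ m₁ ρ₁ δ)) = mixX G Λ₁ := by
    rw [J_trX hgH (isClosed_curv1 (m₁ := m₁) hΛ hρ₁ h01 hδ).form]
    exact coh n X G Λ₁ (INT.IsKahler.isClosedForm hG) hΛ U _ hU (smooth_logR hρ₁ h01 m₁ hδ)
  rw [f1]
  have g1 := mul_le_mul_of_nonneg_left E1 (by positivity : 0 ≤ c * C * t⁻¹)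
  have g2 := mul_le_mul_of_nonneg_left E4 (by positivity : 0 ≤ c * C * t⁻¹)
  linarith

end Vale.Agent.P281.H156.KL
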